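import Vale.Agent.P290Z.Spec1
import Mathlib.Analysis.LocallyConvex.Separation

/-!
Linear images of polydiscs, transport of the approximation property, polytopes.
-/

open Set Filter Metric
open scoped Topology Manifold ContDiff

namespace Vale.Agent.P290Z.Conv

open Vale.Agent.P290

variable {V W X : Type} [NormedAddCommGroup V] [NormedSpace ℂ V] [NormedAddCommGroup W]
  [NormedSpace ℂ W]

theorem good_prod {K : Set V} {D : Set W} (hK : Good K) (hD : Good D) : Good (K ×ˢ D) :=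
  ⟨hK.1.prod hD.1, hK.2.prod hD.2⟩

theorem good_pre (e : V ≃L[ℂ] W) {D : Set W} (hD : Good D) : Good (e ⁻¹' D) :=
  ⟨e.toHomeomorph.isCompact_preimage.2 hD.1,
    hD.2.linear_preimage ((e : V →L[ℂ] W).restrictScalars ℝ : V →ₗ[ℝ] W)⟩

theorem good_slice {S : Set (ℂ × V)} (hS : Good S) (c : ℂ) : Good {y | (c, y) ∈ S} := by
  refine ⟨(hS.1.image continuous_snd).of_isClosed_subset
    (hS.1.isClosed.preimage (Continuous.prodMk_right c)) fun y hy => ⟨_, hy, rfl⟩,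
    fun y hy z hz a b ha hb hab => ?_⟩
  have h := hS.2 hy hz ha hb hab
  rwa [Prod.smul_mk, Prod.smul_mk, Prod.mk_add_mk, ← add_smul, hab, one_smul] at h

/-- linear images of polydiscs -/
def Poly (D : Set W) : Prop :=
  ∃ (ι : Type) (_ : Fintype ι) (ρ : ι → ℝ) (e : W ≃L[ℂ] (ι → ℂ)), (∀ i, 0 < ρ i) ∧
    D = {w | ∀ i, ‖e w i‖ ≤ ρ i}

theorem good_pd {ι : Type} [Fintype ι] (ρ : ι → ℝ) : Good {w : ι → ℂ | ∀ i, ‖w i‖ ≤ ρ i} := by
  have e : {w : ι → ℂ | ∀ i, ‖w i‖ ≤ ρ i} = univ.pi fun i => closedBall 0 (ρ i) := by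
    ext w
    simp
  rw [e]
  exact ⟨isCompact_univ_pi fun i => isCompact_closedBall _ _,
    convex_pi fun i _ => convex_closedBall _ _⟩

theorem Poly.good {D : Set W} (h : Poly D) : Good D := by
  obtain ⟨ι, _, ρ, e, -, rfl⟩ := h
  exact good_pre e (good_pd ρ)

theorem Poly.zero {D : Set W} (h : Poly D) : (0 : W) ∈ D := by
  obtain ⟨ι, _, ρ, e, h, rfl⟩ := h
  exact fun i => by simpa using (h i).le

theorem Poly.prod {D : Set V} {D' : Set W} (h : Poly D) (h' : Poly D') : Poly (D ×ˢ D') := by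
  obtain ⟨ι, _, ρ, e, h, rfl⟩ := h
  obtain ⟨ι', _, ρ', e', h', rfl⟩ := h'
  refine ⟨ι ⊕ ι', inferInstance, Sum.elim ρ ρ', (e.prodCongr e').trans
    (ContinuousLinearEquiv.sumPiEquivProdPi ℂ ι ι' fun _ => ℂ).symm, ?_, ?_⟩
  · exact Sum.forall.2 ⟨h, h'⟩
  · ext w
    exact ⟨fun hw => Sum.forall.2 hw, fun hw => ⟨fun i => hw (Sum.inl i), fun i => hw (Sum.inr i)⟩⟩

theorem poly_ball {r : ℝ} (hr : 0 < r) : Poly (closedBall (0 : C2) r) := by
  refine ⟨Fin 2, inferInstance, fun _ => r, (ContinuousLinearEquiv.finTwoArrow ℂ ℂ).symm,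
    fun _ => hr, ?_⟩
  ext w
  rw [mem_closedBall_zero_iff, Prod.norm_def, max_le_iff]
  exact (Fin.forall_fin_two (p := fun i => ‖![w.1, w.2] i‖ ≤ r)).symm

theorem exists_poly [FiniteDimensional ℂ W] {K : Set W} (hK : IsCompact K) :
    ∃ D : Set W, Poly D ∧ K ⊆ D := by
  let e : W ≃L[ℂ] (Fin (Module.finrank ℂ W) → ℂ) := ContinuousLinearEquiv.ofFinrankEq (by simp)
  obtain ⟨R, hR⟩ := hK.exists_bound_of_continuousOn e.continuous.continuousOn
  exact ⟨_, ⟨_, inferInstance, fun _ => max R 1, e, fun _ => lt_max_of_lt_right one_pos, rfl⟩,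
    fun x hx i => (norm_le_pi_norm _ i).trans ((hR x hx).trans (le_max_left _ _))⟩

theorem Poly.enlarge {D U : Set W} (h : Poly D) (hU : IsOpen U) (hD : D ⊆ U) :
    ∃ D', Poly D' ∧ D ⊆ interior D' ∧ D' ⊆ U := by
  have hg := h.good
  obtain ⟨ι, _, ρ, e, h, rfl⟩ := h
  have h1 : ∀ᶠ t : ℝ in 𝓝 1, ∀ w ∈ {w | ∀ i, ‖e w i‖ ≤ ρ i}, (t : ℂ) • w ∈ U :=
    hg.1.eventually_forall_of_forall_eventually fun w hw =>
      (by fun_prop : Continuous fun p : ℝ × W => (p.1 : ℂ) • p.2).continuousAt.eventually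
        (hU.mem_nhds (by simpa using hD hw))
  obtain ⟨t, h2, ht⟩ := ((h1.filter_mono nhdsWithin_le_nhds).and
    (self_mem_nhdsWithin (s := Ioi (1 : ℝ)))).exists
  have ht' : (1 : ℝ) < t := ht
  have h0 : 0 < t := one_pos.trans ht'
  refine ⟨_, ⟨ι, inferInstance, fun i => t * ρ i, e, fun i => mul_pos h0 (h i), rfl⟩, ?_,
    fun w hw => ?_⟩
  · refine fun w hw => mem_interior_iff_mem_nhds.2 (eventually_all.2 fun i => ?_)
    exact ((by fun_prop : Continuous fun w => ‖e w i‖).continuousAt.eventually_lt_const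
      ((hw i).trans_lt (lt_mul_of_one_lt_left (h i) ht'))).mono fun _ => le_of_lt
  · have h3 := h2 ((t : ℂ)⁻¹ • w) fun i => by
      rw [map_smul, Pi.smul_apply, norm_smul, norm_inv, Complex.norm_real, Real.norm_of_nonneg h0.le,
        inv_mul_le_iff₀ h0]
      exact hw i
    rwa [smul_inv_smul₀ (by exact_mod_cast h0.ne')] at h3

/-- a compact convex set is approximated by a polydisc cut by half spaces -/
theorem exists_cuts [FiniteDimensional ℂ V] {K D U : Set V} (hK : Good K) (h0 : (0 : V) ∈ K)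
    (hD : IsCompact D) (hU : IsOpen U) (hKU : K ⊆ U) : ∃ s : Finset (V →L[ℂ] ℂ),
      (∀ x ∈ K, ∀ l ∈ s, (l x).re ≤ 1) ∧ ∀ x ∈ D, (∀ l ∈ s, (l x).re ≤ 1) → x ∈ U := by
  have h1 : ∀ z ∈ D \ U, ∃ l : V →L[ℂ] ℂ, (∀ x ∈ K, (l x).re ≤ 1) ∧ 1 < (l z).re := fun z hz => by
    obtain ⟨f, u, h2, h3⟩ := RCLike.geometric_hahn_banach_closed_point (𝕜 := ℂ) hK.2 hK.1.isClosed
      fun h => hz.2 (hKU h)
    have hu : 0 < u := by simpa using h2 0 h0
    have e : ∀ x, ((((u⁻¹ : ℝ) : ℂ) • f) x).re = u⁻¹ * (f x).re := fun x =>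
      Complex.re_ofReal_mul _ _
    refine ⟨((u⁻¹ : ℝ) : ℂ) • f, fun x hx => ?_, ?_⟩
    · rw [e, inv_mul_le_iff₀ hu, mul_one]
      exact (h2 x hx).le
    · rw [e, lt_inv_mul_iff₀ hu, mul_one]
      exact h3
  obtain ⟨s, hs⟩ := (hD.diff hU).elim_finite_subcover
    (fun l : {l : V →L[ℂ] ℂ // ∀ x ∈ K, (l x).re ≤ 1} => {z | 1 < (l.1 z).re})
    (fun l => isOpen_lt continuous_const (Complex.continuous_re.comp l.1.continuous))
    fun z hz => by
      obtain ⟨l, h2, h3⟩ := h1 z hz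
      exact mem_iUnion.2 ⟨⟨l, h2⟩, h3⟩
  refine ⟨s.map (Function.Embedding.subtype _), fun x hx l hl => ?_, fun x hx h => ?_⟩
  · obtain ⟨l, -, rfl⟩ := Finset.mem_map.1 hl
    exact l.2 x hx
  · by_contra h2
    obtain ⟨l, h3, h4⟩ := mem_iUnion₂.1 (hs ⟨hx, h2⟩)
    exact absurd (h l.1 (Finset.mem_map_of_mem _ h3)) (not_le.2 h4)

section
variable [TopologicalSpace X] [ChartedSpace C2 X]

theorem hn_comp {S : Set V} {S' : Set W} {f : W → X} (hf : HN S' f) {a : V → W}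
    (ha : Differentiable ℂ a) (h : MapsTo a S S') : HN S fun x => f (a x) :=
  ((ha.continuous.tendsto_nhdsSet h).eventually hf).mono fun x hx =>
    MDifferentiableAt.comp x hx (ha x).mdifferentiableAt

theorem hn_mono {S S' : Set V} {f : V → X} (hf : HN S' f) (h : S ⊆ S') : HN S f :=
  hf.filter_mono (nhdsSet_mono h)

theorem hn_prod {S : Set V} {S' : Set W} (hS : IsCompact S) (hS' : IsCompact S') {f : V × W → X}
    (hf : HN (S ×ˢ S') f) : ∃ U U', IsOpen U ∧ IsOpen U' ∧ S ⊆ U ∧ S' ⊆ U' ∧ HN (U ×ˢ U') f := by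
  obtain ⟨O, h1, h2, h3⟩ := eventually_nhdsSet_iff_exists.1 hf
  obtain ⟨U, U', k1, k2, k3, k4, k5⟩ := generalized_tube_lemma hS hS' h1 h2
  exact ⟨U, U', k1, k2, k3, k4, eventually_nhdsSet_iff_exists.2 ⟨O, h1, k5, h3⟩⟩

end

variable [MetricSpace X] [ChartedSpace C2 X]

/-- the approximation property of a set -/
def AP (X : Type) [MetricSpace X] [ChartedSpace C2 X] (K : Set V) : Prop :=
  ∀ f : V → X, HN K f → ∀ L : Set V, IsCompact L → CC K L f

theorem cc_pull {K L : Set V} {K' L' : Set W} {f : V → X} {g : W → X} (h : CC K' L' g) {a : V → W}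
    (ha : Differentiable ℂ a) (h1 : MapsTo a K K') (h2 : MapsTo a L L')
    (h3 : ∀ x ∈ K, g (a x) = f x) : CC K L f := fun ε hε => by
  obtain ⟨F, k1, k2⟩ := h ε hε
  exact ⟨fun x => F (a x), hn_comp k1 ha h2, fun x hx => h3 x hx ▸ k2 _ (h1 hx)⟩

theorem cc_mono {K K' L : Set V} {f : V → X} (h : CC K' L f) (hK : K ⊆ K') : CC K L f :=
  fun ε hε => (h ε hε).imp fun _ hF => ⟨hF.1, fun x hx => hF.2 x (hK hx)⟩

theorem cc_trans {K K' L : Set V} {f : V → X} (h : CC K K' f) (hK : K ⊆ K') (h' : AP X K')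
    (hL : IsCompact L) : CC K L f := fun ε hε => by
  obtain ⟨F, k1, k2⟩ := h _ (half_pos hε)
  obtain ⟨G, k3, k4⟩ := h' F k1 L hL _ (half_pos hε)
  exact ⟨G, k3, fun x hx => (dist_triangle _ _ _).trans_lt
    (by linarith [k2 x hx, k4 x (hK hx)])⟩

theorem AP.pull {K : Set V} {K' : Set W} (h : AP X K') {a : V → W} {b : W → V}
    (ha : Differentiable ℂ a) (hb : Differentiable ℂ b) (hab : ∀ x, b (a x) = x)
    (h1 : MapsTo a K K') (h2 : MapsTo b K' K) : AP X K := fun f hf L hL =>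
  cc_pull (h _ (hn_comp hf hb h2) _ (hL.image ha.continuous)) ha h1 (mapsTo_image a L)
    fun x _ => congrArg f (hab x)

theorem AP.pre {K' : Set W} (h : AP X K') (e : V ≃L[ℂ] W) : AP X (e ⁻¹' K') :=
  h.pull e.differentiable e.symm.differentiable e.symm_apply_apply (fun _ hx => hx)
    fun x hx => by simpa using hx

theorem ap_empty : AP X (∅ : Set V) := fun f _ _ _ _ _ =>
  ⟨fun _ => f 0, Eventually.of_forall fun _ => mdifferentiableAt_const, fun _ h => h.elim⟩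

theorem Poly.ap (hX : PolyCC X) {D : Set W} (h : Poly D) : AP X D := by
  obtain ⟨ι, _, ρ, e, h, rfl⟩ := h
  let σ := Fintype.equivFin ι
  have h1 : AP X (PD fun i => ρ (σ.symm i)) := hX _ _ fun i => h _
  have h2 := h1.pre (e.trans (ContinuousLinearEquiv.piCongrLeft ℂ (fun _ => ℂ) σ.symm).symm)
  exact (Set.ext fun w => σ.symm.forall_congr_right (q := fun i => ‖e w i‖ ≤ ρ i) :
    _ = {w | ∀ i, ‖e w i‖ ≤ ρ i}) ▸ h2

end Vale.Agent.P290Z.Conv
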